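import Vale.Agent.Lib.P308.WFinal

namespace Vale.Agent.Results.P308.A_Expander016

/-- In a `d`-regular graph on `N` vertices (`d ≥ 1`) whose adjacency matrix has all nontrivial
singular values at most `d / 16` (a constant relative spectral gap, any degree), the
near-perfect matchings (exactly two uncovered vertices) are at most `16 * N ^ 5` times as many
as the perfect matchings. -/
theorem result {V : Type*} [Fintype V] [DecidableEq V] (G : SimpleGraph V) [DecidableRel G.Adj]
    (d : ℕ) (hd : 0 < d) (hreg : G.IsRegularOfDegree d) (lam : ℝ) (hlam : 0 ≤ lam)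
    (hspec : ∀ x : V → ℝ, ∑ v, x v = 0 →
      ∑ v, ((G.adjMatrix ℝ).mulVec x v) ^ 2 ≤ lam ^ 2 * ∑ v, x v ^ 2)
    (hl : 16 * lam ≤ d) :
    Set.ncard {M : G.Subgraph | M.IsMatching ∧ Set.ncard (M.verts)ᶜ = 2} ≤
      16 * Fintype.card V ^ 5 * Set.ncard {M : G.Subgraph | M.IsPerfectMatching} :=
  Vale.Agent.Lib.P308.near_le_uniform16 G d hd hreg lam hlam hspec hl

end Vale.Agent.Results.P308.A_Expander016
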